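import Vale.Agent.P031.Statement
import Vale.Agent.P031.Upper
import Vale.Agent.P031.Lower
import Vale.Agent.P031.Collision
import Vale.Agent.P031.StrictA
import Vale.Agent.P031.Profile
import Vale.Agent.P031.Crude
import Vale.Agent.P031.Normal
import Vale.Agent.P031.Euler
import Vale.Agent.P031.Sieve
import Vale.Agent.P031.Volume

/-!
# P031 Q2: the ratio of totient value counts
-/

open Filter
open scoped Topology

namespace Vale.Agent.Results.P031.ErdosHallRatio

open Vale.Agent.P031

/-- Erdős and Hall's question: `V (c x) / V x → c` for the counting function of totient values. -/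
theorem result : ∀ c : ℝ, 1 < c → Tendsto
    (fun x : ℝ =>
      ({v : ℕ | (v : ℝ) ≤ c * x ∧ ∃ n, 1 ≤ n ∧ Nat.totient n = v}.ncard : ℝ) /
        ({v : ℕ | (v : ℝ) ≤ x ∧ ∃ n, 1 ≤ n ∧ Nat.totient n = v}.ncard : ℝ))
    atTop (𝓝 c) :=
  have hA : AbnormalTarget := abnormal euler_of sieve
  have hC : CollisionTarget := collision_of euler_of sieve
  erdosHall_of
    (upper_target euler_of hA (crude euler_of window_of hA) (manyFactors euler_of)
      (longTuple euler_of window_of hA) (innerFail euler_of window_of hA) (topFail euler_of)
      (Volume.bandTarget window_of) (strictA_of hC hA window_of))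
    (Lower.lower_of hC hA window_of)

end Vale.Agent.Results.P031.ErdosHallRatio
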